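import Crest.Agent.N250.Re.Basic
import Crest.Agent.N250.Tr.Base

/-!
# Row 250: mean value and Taylor inequalities on slices with two-sided balls (helper20)

No charts and no curves joining the points: a maximum of `f - K |· - q|` on the compact piece.
-/

set_option autoImplicit false
open MeasureTheory Set Filter Topology
open scoped ContDiff InnerProductSpace
open Crest.GeometryTopology.MCF

noncomputable section

namespace Crest.Agent.N250.Im

variable {F : Mv} {t ρ L d : ℝ} {p q x y : E}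

/-- Federer's form of the two-sided ball condition -/
theorem reach_iff {P : ST} (hn : ‖F.n P‖ = 1) (hρ : 0 < ρ) : F.Reach P ρ ↔
    ∀ y ∈ F.sl P.2, |⟪F.n P, y - P.1⟫_ℝ| ≤ ‖y - P.1‖ ^ 2 / (2 * ρ) := by
  refine forall₂_congr fun y _ => ?_
  have e1 : dist y (P.1 + ρ • F.n P) ^ 2 = ‖y - P.1‖ ^ 2 - 2 * ρ * ⟪F.n P, y - P.1⟫_ℝ + ρ ^ 2 := by
    rw [dist_eq_norm, ← sub_sub, norm_sub_sq_real, norm_smul, hn, inner_smul_right,
      real_inner_comm, Real.norm_of_nonneg hρ.le]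
    ring
  have e2 : dist y (P.1 - ρ • F.n P) ^ 2 = ‖y - P.1‖ ^ 2 + 2 * ρ * ⟪F.n P, y - P.1⟫_ℝ + ρ ^ 2 := by
    rw [dist_eq_norm, sub_sub_eq_add_sub, add_sub_right_comm, norm_add_sq_real, norm_smul, hn,
      inner_smul_right, real_inner_comm, Real.norm_of_nonneg hρ.le]
    ring
  rw [← sq_le_sq₀ hρ.le dist_nonneg, ← sq_le_sq₀ hρ.le dist_nonneg, e1, e2, abs_le,
    le_div_iff₀ (by positivity), neg_le, le_div_iff₀ (by positivity)]
  constructor
  · rintro ⟨h1, h2⟩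
    constructor <;> nlinarith
  · rintro ⟨h1, h2⟩
    constructor <;> nlinarith

/-- a curve in the slice with a given tangent vector -/
theorem exists_curve (hF : F.Reg) (hx : (x, t) ∈ F.M) {v : E} (hv : ⟪F.n (x, t), v⟫_ℝ = 0) :
    ∃ γ : ℝ → E, γ 0 = x ∧ HasDerivAt γ v 0 ∧ ∀ᶠ s in 𝓝 (0 : ℝ), (γ s, t) ∈ F.M := by
  obtain ⟨U, π, h⟩ := hF.exists_retr hx
  have h1 : HasDerivAt (fun s : ℝ => ((x + s • v, t) : ST)) (v, 0) 0 := by
    have := ((hasDerivAt_id (0 : ℝ)).smul_const v).const_add x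
    rw [one_smul] at this
    exact this.prodMk (hasDerivAt_const _ _)
  have h0 : ((x + (0 : ℝ) • v, t) : ST) = (x, t) := by simp
  have h2 : HasFDerivAt π (fderiv ℝ π (x, t)) (x + (0 : ℝ) • v, t) := by
    rw [h0]
    exact ((h.sm.contDiffAt (h.isOpen.mem_nhds h.mem)).differentiableAt (by simp)).hasFDerivAt
  have h3 := h2.comp_hasDerivAt 0 h1
  rw [h.der (v, 0) (by simp [Mv.Tg, hv])] at h3
  refine ⟨fun s => (π (x + s • v, t)).1, by simp [h.fix _ h.mem hx], h3.fst, ?_⟩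
  have h4 : ∀ᶠ s in 𝓝 (0 : ℝ), ((x + s • v, t) : ST) ∈ U :=
    h1.continuousAt.eventually (by simpa using h.isOpen.mem_nhds h.mem)
  filter_upwards [h4] with s hs
  have h5 := h.maps hs
  have h6 := h.time _ hs
  rwa [show π (x + s • v, t) = ((π (x + s • v, t)).1, t) from Prod.ext rfl h6] at h5

/-- derivative along a curve in the slice -/
theorem hasDerivAt_curve {G : Type} [NormedAddCommGroup G] [NormedSpace ℝ G] {f : ST → G}
    {γ : ℝ → E} {v : E} {s : ℝ} (hf : DifferentiableWithinAt ℝ f F.M (γ s, t))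
    (hγ : HasDerivAt γ v s) (hm : ∀ᶠ u in 𝓝 s, (γ u, t) ∈ F.M) :
    HasDerivAt (fun u => f (γ u, t)) (F.td f (γ s, t) (v, 0)) s := by
  have h1 : HasDerivAt (fun u => ((γ u, t) : ST)) (v, 0) s := hγ.prodMk (hasDerivAt_const _ _)
  exact hf.hasFDerivWithinAt.comp_hasDerivAt s h1 hm

/-- **T1**, scalar form -/
theorem mv_real (hF : F.Reg) {f : ST → ℝ} (hq : (q, t) ∈ F.M) (hρ : 0 < ρ) (hd : d ≤ ρ)
    (hK : IsCompact (F.sl t ∩ Metric.closedBall q d))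
    (hf : ∀ y ∈ F.sl t ∩ Metric.closedBall q d, DifferentiableWithinAt ℝ f F.M (y, t))
    (hR : ∀ y ∈ F.sl t ∩ Metric.closedBall q d, F.Reach (y, t) ρ)
    (hL : ∀ y ∈ F.sl t ∩ Metric.closedBall q d, ∀ v, ⟪F.n (y, t), v⟫_ℝ = 0 →
      |F.td f (y, t) (v, 0)| ≤ L * ‖v‖) (hL0 : 0 ≤ L)
    (hp : p ∈ F.sl t ∩ Metric.closedBall q d) : f (p, t) - f (q, t) ≤ 2 * L * ‖p - q‖ := by
  refine le_of_forall_pos_le_add fun ε hε => ?_
  obtain ⟨K, hKL, hKε⟩ : ∃ K, 2 * L < K ∧ K * ‖p - q‖ ≤ 2 * L * ‖p - q‖ + ε := by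
    refine ⟨2 * L + ε / (‖p - q‖ + 1), by
      have : 0 < ε / (‖p - q‖ + 1) := by positivity
      linarith, ?_⟩
    have h1 : ε / (‖p - q‖ + 1) * ‖p - q‖ ≤ ε := by
      rw [div_mul_eq_mul_div, div_le_iff₀ (by positivity)]
      nlinarith [norm_nonneg (p - q)]
    linarith [add_mul (2 * L) (ε / (‖p - q‖ + 1)) ‖p - q‖]
  have hc : ContinuousOn (fun y => f (y, t) - K * ‖y - q‖) (F.sl t ∩ Metric.closedBall q d) := by
    refine ContinuousOn.sub (fun y hy => ?_) (by fun_prop)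
    exact (hf y hy).continuousWithinAt.comp (f := fun y : E => ((y, t) : ST))
      (Continuous.prodMk_left t).continuousWithinAt fun z hz => hz.1
  obtain ⟨y, hy, hmax⟩ := hK.exists_isMaxOn ⟨p, hp⟩ hc
  by_cases hyq : y = q
  · have := hmax hp
    simp only [mem_ofPred_eq, hyq, sub_self, norm_zero, mul_zero, sub_zero] at this
    linarith
  exfalso
  have hr : 0 < ‖y - q‖ := norm_pos_iff.2 (sub_ne_zero.2 hyq)
  have hrd : ‖y - q‖ ≤ d := by simpa [dist_eq_norm] using hy.2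
  have hn := hF.norm_n hy.1
  set τ := F.PL (y, t) (q - y) with hτ
  have hτn : ⟪F.n (y, t), τ⟫_ℝ = 0 := Tr.n_PL hF hy.1 _
  set a := ⟪F.n (y, t), q - y⟫_ℝ with ha
  have hqy : ‖q - y‖ = ‖y - q‖ := norm_sub_rev _ _
  have hfed : |a| ≤ ‖y - q‖ / 2 := by
    have h1 := (reach_iff hn hρ).1 (hR y hy) q hq
    simp only [hqy] at h1
    refine h1.trans ?_
    rw [div_le_div_iff₀ (by positivity) (by positivity)]
    nlinarith
  have hip : ⟪q - y, τ⟫_ℝ = ‖y - q‖ ^ 2 - a ^ 2 := by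
    rw [hτ, Mv.PL, inner_sub_right, inner_smul_right, real_inner_self_eq_norm_sq, hqy,
      real_inner_comm (F.n (y, t)), ← ha]
    ring
  have hτ2 : ‖τ‖ ^ 2 = ‖y - q‖ ^ 2 - a ^ 2 := by
    rw [← hip, ← real_inner_self_eq_norm_sq]
    conv_lhs => rw [hτ, Mv.PL, inner_sub_left, inner_smul_left, ← Mv.PL, ← hτ, hτn]
    simp
  have hτ3 : ‖y - q‖ / 2 ≤ ‖τ‖ := by
    refine abs_le_of_sq_le_sq' ?_ (norm_nonneg _) |>.2
    nlinarith [sq_abs a, abs_nonneg a]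
  obtain ⟨γ, h0, h1, h2⟩ := exists_curve hF hy.1 hτn
  have h3 : HasDerivAt (fun s => ‖γ s - q‖) (-(‖τ‖ ^ 2 / ‖y - q‖)) 0 := by
    have h4 := (h1.sub_const q).norm_sq
    have h5 := h4.sqrt (by rw [h0]; positivity)
    simp only [Real.sqrt_sq (norm_nonneg _), h0] at h5
    convert h5 using 1
    rw [← neg_sub q y, inner_neg_left, hip, hτ2, neg_sub]
    field_simp
  have h4 := hasDerivAt_curve (h0 ▸ hf y hy) h1 h2
  rw [h0] at h4
  have h5 := h4.sub (h3.const_mul K)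
  have hpos : 0 < F.td f (y, t) (τ, 0) - K * -(‖τ‖ ^ 2 / ‖y - q‖) := by
    have b1 := (abs_le.1 (hL y hy τ hτn)).1
    have b2 : ‖τ‖ / 2 ≤ ‖τ‖ ^ 2 / ‖y - q‖ := by
      rw [le_div_iff₀ hr]
      nlinarith [norm_nonneg τ]
    have b3 : 0 < ‖τ‖ := by linarith
    nlinarith
  have hneg : -(‖τ‖ ^ 2 / ‖y - q‖) < 0 := by
    have b3 : 0 < ‖τ‖ := by linarith
    have : 0 < ‖τ‖ ^ 2 / ‖y - q‖ := by positivity
    linarith
  have e1 := (hasDerivAt_iff_tendsto_slope_zero.1 h5).eventually (lt_mem_nhds hpos)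
  have e2 := (hasDerivAt_iff_tendsto_slope_zero.1 h3).eventually (gt_mem_nhds hneg)
  have hle : 𝓝[>] (0 : ℝ) ≤ 𝓝[≠] 0 := nhdsWithin_mono _ fun s hs => ne_of_gt hs
  obtain ⟨s, ⟨⟨s1, s2⟩, s3⟩, s4⟩ := ((((e1.and e2).filter_mono hle).and
    (h2.filter_mono nhdsWithin_le_nhds)).and self_mem_nhdsWithin).exists
  have s5 : 0 < s := s4
  simp only [zero_add, smul_eq_mul, h0, Pi.sub_apply] at s1 s2
  have s6 : ‖γ s - q‖ - ‖y - q‖ < 0 := by
    by_contra h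
    exact absurd s2 (not_lt.2 (mul_nonneg (inv_nonneg.2 s5.le) (not_lt.1 h)))
  have s7 := (mul_pos_iff_of_pos_left (inv_pos.2 s5)).1 s1
  have s8 := hmax (show γ s ∈ F.sl t ∩ Metric.closedBall q d from
    ⟨s3, by rw [mem_closedBall_iff_norm]; linarith⟩)
  simp only [mem_ofPred_eq] at s8
  linarith

/-- **T1**: the mean value inequality -/
theorem mv {G : Type} [NormedAddCommGroup G] [NormedSpace ℝ G] (hF : F.Reg) {f : ST → G}
    (hq : (q, t) ∈ F.M) (hρ : 0 < ρ) (hd : d ≤ ρ)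
    (hK : IsCompact (F.sl t ∩ Metric.closedBall q d))
    (hf : ∀ y ∈ F.sl t ∩ Metric.closedBall q d, DifferentiableWithinAt ℝ f F.M (y, t))
    (hR : ∀ y ∈ F.sl t ∩ Metric.closedBall q d, F.Reach (y, t) ρ)
    (hL : ∀ y ∈ F.sl t ∩ Metric.closedBall q d, ∀ v, ⟪F.n (y, t), v⟫_ℝ = 0 →
      ‖F.td f (y, t) (v, 0)‖ ≤ L * ‖v‖) (hL0 : 0 ≤ L)
    (hp : p ∈ F.sl t ∩ Metric.closedBall q d) : ‖f (p, t) - f (q, t)‖ ≤ 2 * L * ‖p - q‖ := by
  obtain ⟨g, hg, hgx⟩ := exists_dual_vector'' ℝ (f (p, t) - f (q, t))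
  have := mv_real hF (f := fun z => g (f z)) hq hρ hd hK
    (fun y hy => g.differentiableAt.comp_differentiableWithinAt _ (hf y hy)) hR (fun y hy v hv => by
      have h1 : HasFDerivWithinAt (fun z => g (f z)) _ F.M (y, t) :=
        g.hasFDerivAt.comp_hasFDerivWithinAt (y, t) (hf y hy).hasFDerivWithinAt
      rw [hF.td_eq hy.1 h1 (by simp [Mv.Tg, hv])]
      refine (g.le_opNorm _).trans ?_
      exact (mul_le_of_le_one_left (norm_nonneg _) hg).trans (hL y hy v hv)) hL0 hp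
  rwa [← map_sub, hgx] at this

/-- **T2**: Taylor's inequality; `T` is any linear map with `‖(df_y - T)|_{T_y}‖ ≤ L` -/
theorem taylor {G : Type} [NormedAddCommGroup G] [NormedSpace ℝ G] (hF : F.Reg) {f : ST → G}
    (T : E →L[ℝ] G) (hq : (q, t) ∈ F.M) (hρ : 0 < ρ) (hd : d ≤ ρ)
    (hK : IsCompact (F.sl t ∩ Metric.closedBall q d))
    (hf : ∀ y ∈ F.sl t ∩ Metric.closedBall q d, DifferentiableWithinAt ℝ f F.M (y, t))
    (hR : ∀ y ∈ F.sl t ∩ Metric.closedBall q d, F.Reach (y, t) ρ)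
    (hL : ∀ y ∈ F.sl t ∩ Metric.closedBall q d, ∀ v, ⟪F.n (y, t), v⟫_ℝ = 0 →
      ‖F.td f (y, t) (v, 0) - T v‖ ≤ L * ‖v‖) (hL0 : 0 ≤ L)
    (hp : p ∈ F.sl t ∩ Metric.closedBall q d) :
    ‖f (p, t) - f (q, t) - T (p - q)‖ ≤ 2 * L * ‖p - q‖ := by
  have hT : ∀ z : ST, HasFDerivAt (fun z : ST => T z.1) (T ∘L ContinuousLinearMap.fst ℝ E ℝ) z :=
    fun z => (T ∘L ContinuousLinearMap.fst ℝ E ℝ).hasFDerivAt
  have := mv hF (f := fun z => f z - T z.1) hq hρ hd hK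
    (fun y hy => (hf y hy).sub (hT _).differentiableAt.differentiableWithinAt) hR
    (fun y hy v hv => by
      have h1 : HasFDerivWithinAt (fun z => f z - T z.1) _ F.M (y, t) :=
        (hf y hy).hasFDerivWithinAt.sub (hT (y, t)).hasFDerivWithinAt
      rw [hF.td_eq hy.1 h1 (by simp [Mv.Tg, hv])]
      exact hL y hy v hv) hL0 hp
  convert this using 2
  rw [map_sub]
  abel

end Crest.Agent.N250.Im

end
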