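import Crest.Agent.N250.Im.Rch
import Crest.Agent.N250.Tb.Defs
import Crest.Agent.N250.R.One

/-!
# Row 250: normal and second fundamental form of a small perturbation `x + Y` (helper20)
-/

set_option autoImplicit false
open MeasureTheory Set Filter Topology
open scoped ContDiff InnerProductSpace
open Crest.GeometryTopology.MCF

noncomputable section

namespace Crest.Agent.N250.Im

variable {F G : Mv} {t s ε κ : ℝ} {p : E} {Y : ST → E}

theorem sm_coord (hY : F.Sm Y) (c : Fin 3) : F.Sm fun z => Y z c :=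
  (EuclideanSpace.proj (𝕜 := ℝ) c).contDiff.comp_contDiffOn hY

theorem sm_add_id (hY : F.Sm Y) : F.Sm fun z => z.1 + Y z := contDiffOn_fst.add hY

theorem td_add_id (hF : F.Reg) (hY : F.Sm Y) {P : ST} (hP : P ∈ F.M) {v : E}
    (hv : ⟪F.n P, v⟫_ℝ = 0) : F.td (fun z => z.1 + Y z) P (v, 0) = v + F.td Y P (v, 0) := by
  have h1 : HasFDerivWithinAt (fun z : ST => z.1 + Y z) _ F.M P :=
    (ContinuousLinearMap.fst ℝ E ℝ).hasFDerivAt.hasFDerivWithinAt.add (hY.hasF hP)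
  rw [hF.td_eq hP h1 (by simp [Mv.Tg, hv])]
  rfl

/-- first jets of the components bound the tangential derivative of a vector valued map -/
theorem td_vec_le (hF : F.Reg) (hY : F.Sm Y) {P : ST} (hP : P ∈ F.M)
    (h : ∀ a c, |F.D a (fun z => Y z c) P| ≤ ε) {v : E} (hv : ⟪F.n P, v⟫_ℝ = 0) :
    ‖F.td Y P (v, 0)‖ ≤ 4 * ε * ‖v‖ := by
  refine (norm_le_of_coord (C := 2 * ε * ‖v‖) fun c => ?_).trans (le_of_eq (by ring))
  rw [← hF.td_coord hP (hY.diffW hP) (by simp [Mv.Tg, hv])]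
  exact td_le_of_D (fun a => h a c) hv

/-- the normals are close up to sign -/
theorem PL_n_le (hF : F.Reg) (hG : G.Reg) (hY : F.Sm Y) (hp : (p, t) ∈ F.M)
    (hm : ∀ y ∈ F.sl t, y + Y (y, t) ∈ G.sl s) (h : ∀ a c, |F.D a (fun z => Y z c) (p, t)| ≤ ε) :
    ‖F.PL (p, t) (G.n (p + Y (p, t), s))‖ ≤ 4 * ε := by
  have h0 : 0 ≤ ε := (abs_nonneg _).trans (h 0 0)
  set m := G.n (p + Y (p, t), s) with hmd
  have hv := Tr.n_PL hF hp m
  have h1 := n_td hF hG (X := fun z => z.1 + Y z) hp ((sm_add_id hY).diffW hp) hm hv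
  rw [td_add_id hF hY hp hv, inner_add_right] at h1
  have h2 := td_vec_le hF hY hp h hv
  have h3 := abs_real_inner_le_norm m (F.td Y (p, t) (F.PL (p, t) m, 0))
  rw [hG.norm_n (hm p hp), one_mul] at h3
  have h4 : ⟪m, F.PL (p, t) m⟫_ℝ = ‖F.PL (p, t) m‖ ^ 2 := by
    rw [← real_inner_self_eq_norm_sq, Tb.inner_PL, Mv.PL_of_perp hv]
  have h5 : ‖F.PL (p, t) m‖ * ‖F.PL (p, t) m‖ ≤ 4 * ε * ‖F.PL (p, t) m‖ := by
    have := (abs_le.1 h3).1
    dsimp only at h1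
    nlinarith
  rcases (norm_nonneg (F.PL (p, t) m)).eq_or_lt with h6 | h6
  · rw [← h6]; positivity
  · exact le_of_mul_le_mul_right h5 h6

theorem n_sub_le (hF : F.Reg) (hG : G.Reg) (hY : F.Sm Y) (hp : (p, t) ∈ F.M)
    (hm : ∀ y ∈ F.sl t, y + Y (y, t) ∈ G.sl s) (h : ∀ a c, |F.D a (fun z => Y z c) (p, t)| ≤ ε)
    (ho : 0 ≤ ⟪F.n (p, t), G.n (p + Y (p, t), s)⟫_ℝ) :
    ‖G.n (p + Y (p, t), s) - F.n (p, t)‖ ≤ 6 * ε := by
  have h0 : 0 ≤ ε := (abs_nonneg _).trans (h 0 0)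
  have h1 := PL_n_le hF hG hY hp hm h
  have h2 := Tb.norm_PL_sq hF hp (G.n (p + Y (p, t), s))
  have h3 := hG.norm_n (hm p hp)
  have h4 := abs_real_inner_le_norm (F.n (p, t)) (G.n (p + Y (p, t), s))
  rw [hF.norm_n hp, h3] at h4
  refine abs_le_of_sq_le_sq' ?_ (by positivity) |>.2
  rw [norm_sub_sq_real, hF.norm_n hp, h3, real_inner_comm]
  rw [h3] at h2
  have := (abs_le.1 h4).2
  nlinarith [norm_nonneg (F.PL (p, t) (G.n (p + Y (p, t), s)))]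

/-- the second fundamental form of the image in the frame `d (x + Y)` -/
theorem sh_img (hF : F.Reg) (hG : G.Reg) (hY : F.Sm Y) (hp : (p, t) ∈ F.M)
    (hm : ∀ y ∈ F.sl t, y + Y (y, t) ∈ G.sl s) (a b : Fin 3) :
    ⟪Tb.sh G (p + Y (p, t), s) (F.PL (p, t) (ee a) + F.td Y (p, t) (F.PL (p, t) (ee a), 0)),
      F.PL (p, t) (ee b) + F.td Y (p, t) (F.PL (p, t) (ee b), 0)⟫_ℝ =
    F.nu b (p, t) * ⟪G.n (p + Y (p, t), s), Tb.sh F (p, t) (ee a)⟫_ℝ +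
      F.A a b (p, t) * ⟪G.n (p + Y (p, t), s), F.n (p, t)⟫_ℝ -
      ⟪G.n (p + Y (p, t), s),
        (WithLp.toLp 2 fun c => F.D a (F.D b fun z => Y z c) (p, t) : E)⟫_ℝ := by
  have hv := Tr.n_PL hF hp (ee a)
  obtain ⟨γ, h0, h1, h2⟩ := exists_curve hF hp hv
  have hX := sm_add_id hY
  have hM : (p + Y (p, t), s) ∈ G.M := hm p hp
  have c1 := hasDerivAt_curve (h0 ▸ hX.diffW hp) h1 h2
  rw [h0, td_add_id hF hY hp hv] at c1
  have t1 := n_td hF hG (X := fun z => z.1 + Y z) hp (hX.diffW hp) hm hv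
  rw [td_add_id hF hY hp hv] at t1
  have c2 := hasDerivAt_curve (F := G) (f := G.n) (t := s) (γ := fun u => γ u + Y (γ u, t))
    (s := 0) (by rw [h0]; exact hG.sm_n.diffW hM) c1 (h2.mono fun u hu => hm _ hu)
  rw [h0] at c2
  have e2 : G.td G.n (p + Y (p, t), s)
      (F.PL (p, t) (ee a) + F.td Y (p, t) (F.PL (p, t) (ee a), 0), 0) =
      Tb.sh G (p + Y (p, t), s) (F.PL (p, t) (ee a) + F.td Y (p, t) (F.PL (p, t) (ee a), 0)) := by
    rw [Tb.sh_apply, Mv.PL_of_perp t1]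
  rw [e2] at c2
  have c3' := hasDerivAt_curve (F := F) (f := fun q => ((F.PL q (ee b), 0) : ST)) (t := t)
    (γ := γ) (s := 0) (by rw [h0]; exact (hF.sm_XD b).diffW hp) h1 h2
  rw [h0, hF.td_XD hp (hF.tg_PL hp _)] at c3'
  have c3 : HasDerivAt (fun u => F.PL (γ u, t) (ee b))
      (-(F.nu b (p, t) • F.td F.n (p, t) (F.PL (p, t) (ee a), 0) +
        F.td (F.nu b) (p, t) (F.PL (p, t) (ee a), 0) • F.n (p, t))) 0 :=
    (ContinuousLinearMap.fst ℝ E ℝ).hasFDerivAt.comp_hasDerivAt (0 : ℝ) c3'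
  have hW : F.Sm fun z => (WithLp.toLp 2 fun c => F.D b (fun z => Y z c) z : E) :=
    contDiffOn_euclidean.2 fun c => hF.sm_D (sm_coord hY c) b
  have c4 := hasDerivAt_curve (h0 ▸ hW.diffW hp) h1 h2
  rw [h0] at c4
  have e4 : F.td (fun z => (WithLp.toLp 2 fun c => F.D b (fun z => Y z c) z : E)) (p, t)
      (F.PL (p, t) (ee a), 0) = WithLp.toLp 2 fun c => F.D a (F.D b fun z => Y z c) (p, t) := by
    ext c
    rw [← hF.td_coord hp (hW.diffW hp) (hF.tg_PL hp _)]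
    rfl
  have e5 : ∀ y, (y, t) ∈ F.M → (WithLp.toLp 2 fun c => F.D b (fun z => Y z c) (y, t) : E) =
      F.td Y (y, t) (F.PL (y, t) (ee b), 0) := by
    intro y hy
    ext c
    rw [← hF.td_coord hy (hY.diffW hy) (hF.tg_PL hy _)]
    rfl
  rw [e4] at c4
  have c5 := c2.inner ℝ (c3.add c4)
  have c6 : HasDerivAt (fun u => ⟪G.n (γ u + Y (γ u, t), s), F.PL (γ u, t) (ee b) +
      (WithLp.toLp 2 fun c => F.D b (fun z => Y z c) (γ u, t) : E)⟫_ℝ) 0 0 := by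
    refine (hasDerivAt_const (0 : ℝ) (0 : ℝ)).congr_of_eventuallyEq ?_
    filter_upwards [h2] with u hu
    have hb := Tr.n_PL hF hu (ee b)
    have := n_td hF hG (X := fun z => z.1 + Y z) hu (hX.diffW hu) hm hb
    rw [td_add_id hF hY hu hb] at this
    rw [e5 _ hu]
    exact this
  have c7 := c5.unique c6
  simp only [Pi.add_apply, h0, e5 p hp, inner_add_right, inner_neg_right, inner_smul_right] at c7
  simp only [inner_add_right]
  have e6 : F.td F.n (p, t) (F.PL (p, t) (ee a), 0) = Tb.sh F (p, t) (ee a) := rfl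
  have e7 : F.td (F.nu b) (p, t) (F.PL (p, t) (ee a), 0) = F.A a b (p, t) := rfl
  rw [e6, e7] at c7
  linarith

theorem norm_ee (a : Fin 3) : ‖ee a‖ = 1 := by simp [ee]

/-- the second fundamental forms are close -/
theorem A_sub_le (hF : F.Reg) (hG : G.Reg) (hY : F.Sm Y) (hp : (p, t) ∈ F.M)
    (hm : ∀ y ∈ F.sl t, y + Y (y, t) ∈ G.sl s) (h : ∀ a c, |F.D a (fun z => Y z c) (p, t)| ≤ ε)
    (h' : ∀ a b c, |F.D a (F.D b fun z => Y z c) (p, t)| ≤ ε)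
    (ho : 0 ≤ ⟪F.n (p, t), G.n (p + Y (p, t), s)⟫_ℝ) (hε : ε ≤ 1 / 10) (hκ : 0 ≤ κ)
    (hA : F.A2 (p, t) ≤ κ ^ 2) (hA' : G.A2 (p + Y (p, t), s) ≤ κ ^ 2) (a b : Fin 3) :
    |G.A a b (p + Y (p, t), s) - F.A a b (p, t)| ≤ (42 * κ + 2) * ε := by
  have h0 : 0 ≤ ε := (abs_nonneg _).trans (h 0 0)
  have hM : (p + Y (p, t), s) ∈ G.M := hm p hp
  have hn := n_sub_le hF hG hY hp hm h ho
  have key := sh_img hF hG hY hp hm a b
  set m := G.n (p + Y (p, t), s) with hmd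
  set T := Tb.sh G (p + Y (p, t), s) with hT
  obtain ⟨δ, hδ⟩ : ∃ δ : Fin 3 → E, ∀ a, δ a = F.nu a (p, t) • (m - F.n (p, t)) +
    F.td Y (p, t) (F.PL (p, t) (ee a), 0) := ⟨_, fun _ => rfl⟩
  have hν : ∀ a, |F.nu a (p, t)| ≤ 1 := fun a => (abs_coord_le _ a).trans (hF.norm_n hp).le
  have hδn : ∀ a, ‖δ a‖ ≤ 10 * ε := by
    intro a
    have h1 := td_vec_le hF hY hp h (Tr.n_PL hF hp (ee a))
    have h2 := Tb.norm_PL_le hF hp (ee a)
    rw [norm_ee] at h2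
    have h3 : ‖F.nu a (p, t) • (m - F.n (p, t))‖ ≤ 1 * (6 * ε) := by
      rw [norm_smul, Real.norm_eq_abs]
      gcongr
      exact hν a
    rw [hδ]
    refine (norm_add_le _ _).trans ?_
    nlinarith
  have hw : ∀ a, F.PL (p, t) (ee a) + F.td Y (p, t) (F.PL (p, t) (ee a), 0) =
      ee a + δ a - F.nu a (p, t) • m := by
    intro a
    have hPL : F.PL (p, t) (ee a) = ee a - F.nu a (p, t) • F.n (p, t) := by
      rw [Mv.PL, inner_ee]; rfl
    rw [hδ]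
    generalize F.td Y (p, t) (F.PL (p, t) (ee a), 0) = w
    rw [hPL, smul_sub]
    abel
  have hTm : T m = 0 := Tb.sh_n hG hM
  have hmT : ∀ v, ⟪T v, m⟫_ℝ = 0 := fun v => by rw [real_inner_comm]; exact Tb.n_sh hG hM v
  rw [hw, hw, map_sub, map_smul, hTm, smul_zero, sub_zero, inner_sub_right, inner_smul_right, hmT,
    mul_zero, sub_zero, map_add, inner_add_left, inner_add_right, inner_add_right, inner_ee,
    Tb.sh_ee hG hM] at key
  have hTn : ∀ v, ‖T v‖ ≤ κ * ‖v‖ := Tb.norm_sh_le hG hM hκ hA'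
  have b1 : |⟪T (ee a), δ b⟫_ℝ| ≤ κ * (10 * ε) := by
    refine (abs_real_inner_le_norm _ _).trans ?_
    have := hTn (ee a)
    rw [norm_ee, mul_one] at this
    gcongr
    exact hδn b
  have b0 : ‖T (δ a)‖ ≤ κ * (10 * ε) := (hTn _).trans (by gcongr; exact hδn a)
  have b2 : |⟪T (δ a), ee b⟫_ℝ| ≤ κ * (10 * ε) := by
    refine (abs_real_inner_le_norm _ _).trans ?_
    rw [norm_ee, mul_one]
    exact b0
  have b3 : |⟪T (δ a), δ b⟫_ℝ| ≤ κ * (10 * ε) := by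
    refine (abs_real_inner_le_norm _ _).trans ?_
    have : ‖δ b‖ ≤ 1 := (hδn b).trans (by linarith)
    exact (mul_le_of_le_one_right (norm_nonneg _) this).trans b0
  have hS : ‖Tb.sh F (p, t) (ee a)‖ ≤ κ := by
    have := Tb.norm_sh_le hF hp hκ hA (ee a)
    rwa [norm_ee, mul_one] at this
  have b4 : |F.nu b (p, t) * ⟪m, Tb.sh F (p, t) (ee a)⟫_ℝ| ≤ 1 * (6 * ε * κ) := by
    rw [abs_mul]
    have e : ⟪m, Tb.sh F (p, t) (ee a)⟫_ℝ = ⟪m - F.n (p, t), Tb.sh F (p, t) (ee a)⟫_ℝ := by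
      rw [inner_sub_left, Tb.n_sh hF hp, sub_zero]
    rw [e]
    gcongr
    · exact hν b
    · refine (abs_real_inner_le_norm _ _).trans ?_
      gcongr
  have b5 : |F.A a b (p, t) * ⟪m - F.n (p, t), F.n (p, t)⟫_ℝ| ≤ κ * (6 * ε) := by
    rw [abs_mul]
    gcongr
    · rw [← Tb.sh_ee hF hp]
      exact (abs_coord_le _ b).trans hS
    · refine (abs_real_inner_le_norm _ _).trans ?_
      rw [hF.norm_n hp, mul_one]
      exact hn
  rw [inner_sub_left, hF.inner_n hp] at b5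
  have b6 : |⟪m, (WithLp.toLp 2 fun c => F.D a (F.D b fun z => Y z c) (p, t) : E)⟫_ℝ| ≤ 2 * ε := by
    refine (abs_real_inner_le_norm _ _).trans ?_
    rw [hG.norm_n hM, one_mul]
    exact norm_le_of_coord fun c => h' a b c
  rw [abs_le] at b1 b2 b3 b4 b5 b6 ⊢
  constructor <;> nlinarith [b1.1, b1.2, b2.1, b2.2, b3.1, b3.2, b4.1, b4.2, b5.1, b5.2, b6.1, b6.2]

/-- **`Near`** for the image of a piece `F` of `S` under `x + Y` -/
theorem near_img {S : Mv} {R η : ℝ} (hF : F.Reg) (hG : G.Reg) (hY : F.Sm Y)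
    (him : G.sl 0 = (fun y => y + Y (y, 0)) '' F.sl 0) (hFS : F.sl 0 ⊆ S.sl 0)
    (hSF : ∀ y ∈ S.sl 0, ‖y‖ < R → y ∈ F.sl 0)
    (hnA : ∀ y ∈ F.sl 0, F.n (y, 0) = S.n (y, 0) ∧ ∀ a b, F.A a b (y, 0) = S.A a b (y, 0))
    (hε : ε ≤ 1 / 10) (hκ : 0 ≤ κ) (h1 : 6 * ε < η) (h2 : (42 * κ + 2) * ε < η)
    (hb : ∀ y ∈ F.sl 0, (‖y‖ < R ∨ ‖y + Y (y, 0)‖ < R) → ‖Y (y, 0)‖ ≤ ε ∧
      (∀ a c, |F.D a (fun z => Y z c) (y, 0)| ≤ ε) ∧
      (∀ a b c, |F.D a (F.D b fun z => Y z c) (y, 0)| ≤ ε) ∧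
      0 ≤ ⟪F.n (y, 0), G.n (y + Y (y, 0), 0)⟫_ℝ ∧ F.A2 (y, 0) ≤ κ ^ 2 ∧
      G.A2 (y + Y (y, 0), 0) ≤ κ ^ 2) : Near G S R η := by
  have hm : ∀ y ∈ F.sl 0, y + Y (y, 0) ∈ G.sl 0 := fun y hy => him ▸ mem_image_of_mem _ hy
  have hd : ∀ y, ‖Y (y, 0)‖ ≤ ε → dist (y + Y (y, 0)) y < η := fun y h => by
    rw [dist_eq_norm, add_sub_cancel_left]
    nlinarith [norm_nonneg (Y (y, 0))]
  constructor
  · intro x hx hxR
    rw [him] at hx
    obtain ⟨y, hy, rfl⟩ := hx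
    obtain ⟨b1, b2, b3, b4, b5, b6⟩ := hb y hy (Or.inr hxR)
    refine ⟨y, hFS hy, hd y b1, ?_, fun a b => ?_⟩
    · rw [← (hnA y hy).1]
      exact (n_sub_le hF hG hY hy hm b2 b4).trans_lt h1
    · rw [← (hnA y hy).2]
      exact (A_sub_le hF hG hY hy hm b2 b3 b4 hε hκ b5 b6 a b).trans_lt h2
  · intro y hy hyR
    have hy' := hSF y hy hyR
    exact ⟨_, hm y hy', hd y (hb y hy' (Or.inl hyR)).1⟩

end Crest.Agent.N250.Im

end
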