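import Crest.Agent.N250.Im.MV
import Crest.Agent.N250.Re.Comm
import Crest.Agent.R241.AF1

/-!
# Row 250: images of slices under almost isometric maps (helper20)

`X` maps the slice `F.sl t` onto the slice `G.sl s`.  Reach, closedness and area ratios of the image.
-/

set_option autoImplicit false
open MeasureTheory Set Filter Topology
open scoped ContDiff InnerProductSpace
open Crest.GeometryTopology.MCF

noncomputable section

namespace Crest.Agent.N250.Im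

variable {F G : Mv} {t s ρ L C d : ℝ} {p q x y : E}

theorem abs_coord_le (v : E) (a : Fin 3) : |v a| ≤ ‖v‖ := by
  simpa using PiLp.norm_apply_le v a

theorem norm_le_of_coord {v : E} (h : ∀ a, |v a| ≤ C) : ‖v‖ ≤ 2 * C := by
  have h0 : 0 ≤ C := (abs_nonneg _).trans (h 0)
  refine abs_le_of_sq_le_sq' ?_ (by positivity) |>.2
  rw [EuclideanSpace.real_norm_sq_eq, Fin.sum_univ_three]
  have h1 : ∀ a, v a ^ 2 ≤ C ^ 2 := fun a => sq_le_sq' (abs_le.1 (h a)).1 (abs_le.1 (h a)).2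
  nlinarith [h1 0, h1 1, h1 2]

theorem abs_sum_le (v : E) {w : Fin 3 → ℝ} (h : ∀ a, |w a| ≤ C) : |∑ a, v a * w a| ≤ 2 * C * ‖v‖ := by
  have h1 := abs_real_inner_le_norm v (WithLp.toLp 2 w)
  rw [inner_eq_sum] at h1
  have h2 : ‖(WithLp.toLp 2 w : E)‖ ≤ 2 * C := norm_le_of_coord h
  refine h1.trans ?_
  rw [mul_comm]
  exact mul_le_mul_of_nonneg_right h2 (norm_nonneg _)

/-- first jets bound the tangential derivative -/
theorem td_le_of_D {f : ST → ℝ} {P : ST} (h : ∀ a, |F.D a f P| ≤ C) {v : E}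
    (hv : ⟪F.n P, v⟫_ℝ = 0) : |F.td f P (v, 0)| ≤ 2 * C * ‖v‖ := by
  rw [Mv.td_perp f hv]
  exact abs_sum_le v h

/-- **T1** with a bound for the first jets -/
theorem mv_D (hF : F.Reg) {f : ST → ℝ} (hf : F.Sm f) (hq : (q, t) ∈ F.M) (hρ : 0 < ρ) (hd : d ≤ ρ)
    (hK : IsCompact (F.sl t ∩ Metric.closedBall q d))
    (hR : ∀ y ∈ F.sl t ∩ Metric.closedBall q d, F.Reach (y, t) ρ)
    (hL : ∀ y ∈ F.sl t ∩ Metric.closedBall q d, ∀ a, |F.D a f (y, t)| ≤ C)
    (hp : p ∈ F.sl t ∩ Metric.closedBall q d) : |f (p, t) - f (q, t)| ≤ 4 * C * ‖p - q‖ := by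
  have h0 : 0 ≤ C := (abs_nonneg _).trans (hL p hp 0)
  have := mv hF (L := 2 * C) hq hρ hd hK (fun y hy => hf.diffW hy.1) hR
    (fun y hy v hv => td_le_of_D (hL y hy) hv) (by positivity) hp
  rw [Real.norm_eq_abs] at this
  linarith

theorem ball_mono (hK : IsCompact (F.sl t ∩ Metric.closedBall q ρ)) (hd : d ≤ ρ) :
    IsCompact (F.sl t ∩ Metric.closedBall q d) ∧
      F.sl t ∩ Metric.closedBall q d ⊆ F.sl t ∩ Metric.closedBall q ρ := by
  have h := inter_subset_inter_right (F.sl t) (Metric.closedBall_subset_closedBall (x := q) hd)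
  refine ⟨?_, h⟩
  have := hK.inter_right (Metric.isClosed_closedBall (x := q) (ε := d))
  rwa [inter_assoc, inter_eq_right.2 (Metric.closedBall_subset_closedBall hd)] at this

/-- **T2** with a bound for the second jets -/
theorem taylor_D (hF : F.Reg) {f : ST → ℝ} (hf : F.Sm f) (hq : (q, t) ∈ F.M) (hρ : 0 < ρ)
    (hd : d ≤ ρ) (hK : IsCompact (F.sl t ∩ Metric.closedBall q d))
    (hR : ∀ y ∈ F.sl t ∩ Metric.closedBall q d, F.Reach (y, t) ρ)
    (hL : ∀ y ∈ F.sl t ∩ Metric.closedBall q d, ∀ a b, |F.D a (F.D b f) (y, t)| ≤ C)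
    (hp : p ∈ F.sl t ∩ Metric.closedBall q d) :
    |f (p, t) - f (q, t) - ∑ a, (p - q) a * F.D a f (q, t)| ≤ 16 * C * ‖p - q‖ ^ 2 := by
  have h0 : 0 ≤ C := (abs_nonneg _).trans (hL p hp 0 0)
  have hpd : ‖p - q‖ ≤ d := by simpa [dist_eq_norm] using hp.2
  obtain ⟨hK', hs⟩ := ball_mono hK hpd
  have hp' : p ∈ F.sl t ∩ Metric.closedBall q ‖p - q‖ := ⟨hp.1, by simp [dist_eq_norm]⟩
  have := taylor hF (f := f) (L := 8 * C * ‖p - q‖)
    (innerSL ℝ (WithLp.toLp 2 fun a => F.D a f (q, t) : E)) hq hρ (hpd.trans hd) hK'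
    (fun y hy => hf.diffW hy.1) (fun y hy => hR y (hs hy)) (fun y hy v hv => by
      have e : F.td f (y, t) (v, 0) - innerSL ℝ (WithLp.toLp 2 fun a => F.D a f (q, t) : E) v =
          ∑ a, v a * (F.D a f (y, t) - F.D a f (q, t)) := by
        rw [Mv.td_perp f hv, innerSL_apply_apply, real_inner_comm, inner_eq_sum,
          ← Finset.sum_sub_distrib]
        exact Finset.sum_congr rfl fun a _ => by ring
      rw [e, Real.norm_eq_abs]
      have hy' : ‖y - q‖ ≤ ‖p - q‖ := by simpa [dist_eq_norm] using hy.2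
      refine (abs_sum_le v (C := 4 * C * ‖p - q‖) fun a => ?_).trans (le_of_eq (by ring))
      refine (mv_D hF (hF.sm_D hf a) hq hρ (hpd.trans hd) hK' (fun y hy => hR y (hs hy))
        (fun y hy b => hL y (hs hy) b a) hy).trans ?_
      gcongr) (by positivity) hp'
  rw [innerSL_apply_apply, real_inner_comm, inner_eq_sum, Real.norm_eq_abs] at this
  exact this.trans (le_of_eq (by ring))

/-- a Lipschitz bound for all pairs from the local one and a crude bound -/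
theorem lip_scale {V : Type} [NormedAddCommGroup V] [NormedSpace ℝ V] (hF : F.Reg) {f : ST → V}
    {B : ℝ} (hq : (q, t) ∈ F.M) (hp : (p, t) ∈ F.M) (hρ : 0 < ρ)
    (hK : IsCompact (F.sl t ∩ Metric.closedBall q ρ))
    (hf : ∀ y ∈ F.sl t ∩ Metric.closedBall q ρ, DifferentiableWithinAt ℝ f F.M (y, t))
    (hR : ∀ y ∈ F.sl t ∩ Metric.closedBall q ρ, F.Reach (y, t) ρ)
    (hL : ∀ y ∈ F.sl t ∩ Metric.closedBall q ρ, ∀ v, ⟪F.n (y, t), v⟫_ℝ = 0 →
      ‖F.td f (y, t) (v, 0)‖ ≤ L * ‖v‖) (hL0 : 0 ≤ L) (hB : B ≤ L)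
    (hc : ‖f (p, t) - f (q, t)‖ ≤ B * (ρ + ‖p - q‖)) :
    ‖f (p, t) - f (q, t)‖ ≤ 2 * L * ‖p - q‖ := by
  by_cases h : ‖p - q‖ ≤ ρ
  · exact mv hF hq hρ le_rfl hK hf hR hL hL0 ⟨hp, by simpa [dist_eq_norm] using h⟩
  · have h1 := not_le.1 h
    refine hc.trans ((mul_le_mul_of_nonneg_right hB (by positivity)).trans ?_)
    nlinarith

/-- the derivative of a map between slices is tangent to the target -/
theorem n_td (hF : F.Reg) (hG : G.Reg) {X : ST → E} (hp : (p, t) ∈ F.M)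
    (hX : DifferentiableWithinAt ℝ X F.M (p, t)) (hm : ∀ y ∈ F.sl t, X (y, t) ∈ G.sl s) {v : E}
    (hv : ⟪F.n (p, t), v⟫_ℝ = 0) : ⟪G.n (X (p, t), s), F.td X (p, t) (v, 0)⟫_ℝ = 0 := by
  obtain ⟨γ, h0, h1, h2⟩ := exists_curve hF hp hv
  have h3 := hasDerivAt_curve (h0 ▸ hX) h1 h2
  rw [h0] at h3
  have hM : (X (p, t), s) ∈ G.M := hm p hp
  obtain ⟨W, φ, hW, k⟩ := hG _ hM
  have h4 : HasDerivAt (fun u => ((X (γ u, t), s) : ST)) (F.td X (p, t) (v, 0), 0) 0 :=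
    h3.prodMk (hasDerivAt_const _ _)
  have h5 : HasFDerivAt φ (fderiv ℝ φ (X (p, t), s)) (X (γ 0, t), s) := by
    rw [h0]; exact (k.diffAt hW).hasFDerivAt
  have h6 := h5.comp_hasDerivAt 0 h4
  have h7 : HasDerivAt (φ ∘ fun u => ((X (γ u, t), s) : ST)) 0 0 := by
    refine (hasDerivAt_const (0 : ℝ) (0 : ℝ)).congr_of_eventuallyEq ?_
    have h8 : ∀ᶠ u in 𝓝 (0 : ℝ), ((X (γ u, t), s) : ST) ∈ W :=
      h4.continuousAt.eventually (by simpa [h0] using k.isOpen.mem_nhds hW)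
    filter_upwards [h2, h8] with u a b using (k.mem _ b).1 (hm _ a)
  have := (k.tg_iff hW hM).2 (h6.unique h7)
  rwa [Mv.Tg, mul_zero] at this

/-- **reach of the image** -/
theorem reach_img (hF : F.Reg) (hG : G.Reg) {X : ST → E} (hX : F.Sm X)
    (him : G.sl s = (fun y => X (y, t)) '' F.sl t) (hp : (p, t) ∈ F.M) (hρ : 0 < ρ)
    (hK : IsCompact (F.sl t ∩ Metric.closedBall p ρ))
    (hR : ∀ y ∈ F.sl t ∩ Metric.closedBall p ρ, F.Reach (y, t) ρ)
    (hL : ∀ y ∈ F.sl t ∩ Metric.closedBall p ρ, ∀ a b c,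
      |F.D a (F.D b fun z => X z c) (y, t)| ≤ C)
    (hco : ∀ y ∈ F.sl t, ‖y - p‖ ≤ 2 * ‖X (y, t) - X (p, t)‖) {σ : ℝ} (hσ : 0 < σ)
    (h1 : σ ≤ ρ / 4) (h2 : 256 * C * σ ≤ 1) : G.Reach (X (p, t), s) σ := by
  have hm : ∀ y ∈ F.sl t, X (y, t) ∈ G.sl s := fun y hy => him ▸ mem_image_of_mem _ hy
  have hn := hG.norm_n (hm p hp)
  have hp' : p ∈ F.sl t ∩ Metric.closedBall p ρ := ⟨hp, Metric.mem_closedBall_self hρ.le⟩
  have h0 : 0 ≤ C := (abs_nonneg _).trans (hL p hp' 0 0 0)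
  refine (reach_iff hn hσ).2 fun z hz => ?_
  rw [show ((X (p, t), s) : ST).2 = s from rfl, him] at hz
  obtain ⟨y, hy, rfl⟩ := hz
  have hc := hco y hy
  rw [le_div_iff₀ (by positivity)]
  dsimp only
  by_cases h : ‖y - p‖ ≤ ρ
  · have hy' : y ∈ F.sl t ∩ Metric.closedBall p ρ := ⟨hy, by simpa [dist_eq_norm] using h⟩
    have hXc : ∀ c, F.Sm fun z => X z c := fun c =>
      (EuclideanSpace.proj (𝕜 := ℝ) c).contDiff.comp_contDiffOn hX
    have e1 : ‖X (y, t) - X (p, t) - F.td X (p, t) (F.PL (p, t) (y - p), 0)‖ ≤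
        2 * (16 * C * ‖y - p‖ ^ 2) := by
      refine norm_le_of_coord fun c => ?_
      have := taylor_D hF (hXc c) hp hρ le_rfl hK hR (fun y hy a b => hL y hy a b c) hy'
      rw [← Mv.td_PL, hF.td_coord hp (hX.diffW hp) (hF.tg_PL hp _)] at this
      exact this
    have e2 := n_td hF hG hp (hX.diffW hp) hm (Tr.n_PL hF hp (y - p))
    have e3 := abs_real_inner_le_norm (G.n (X (p, t), s))
      (X (y, t) - X (p, t) - F.td X (p, t) (F.PL (p, t) (y - p), 0))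
    rw [inner_sub_right, e2, sub_zero, hn, one_mul] at e3
    have e4 : ‖y - p‖ ^ 2 ≤ 4 * ‖X (y, t) - X (p, t)‖ ^ 2 := by
      nlinarith [norm_nonneg (y - p)]
    calc _ ≤ 32 * C * (4 * ‖X (y, t) - X (p, t)‖ ^ 2) * (2 * σ) := by
          gcongr
          nlinarith
      _ = 256 * C * σ * ‖X (y, t) - X (p, t)‖ ^ 2 := by ring
      _ ≤ _ := mul_le_of_le_one_left (by positivity) h2
  · have e3 := abs_real_inner_le_norm (G.n (X (p, t), s)) (X (y, t) - X (p, t))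
    rw [hn, one_mul] at e3
    have h3 := not_le.1 h
    nlinarith [norm_nonneg (X (y, t) - X (p, t)), abs_nonneg ⟪G.n (X (p, t), s), X (y, t) - X (p, t)⟫_ℝ]

/-- co-Lipschitz bound from a Lipschitz bound for `X - id` -/
theorem co_lip {a b a' b' : E} (h : ‖a' - a - (b' - b)‖ ≤ 1 / 2 * ‖a - b‖) :
    ‖a - b‖ ≤ 2 * ‖a' - b'‖ ∧ ‖a' - b'‖ ≤ 2 * ‖a - b‖ := by
  have e : a' - a - (b' - b) = a' - b' - (a - b) := by abel
  rw [e] at h
  have h1 := abs_le.1 ((abs_norm_sub_norm_le (a' - b') (a - b)).trans h)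
  constructor <;> nlinarith [h1.1, h1.2, norm_nonneg (a - b)]

/-- **the image is closed in `U`** when the preimage of `U` stays in compact pieces -/
theorem closed_img {X : ST → E} (hX : ContinuousOn X F.M)
    (him : G.sl s = (fun y => X (y, t)) '' F.sl t) {z : E} (hz : z ∈ closure (G.sl s))
    {K N : Set E} (hK : IsCompact K) (hKF : K ⊆ F.sl t) (hN : N ∈ 𝓝 z)
    (hKN : ∀ y ∈ F.sl t, X (y, t) ∈ N → y ∈ K) : z ∈ G.sl s := by
  have hc : ContinuousOn (fun y => X (y, t)) K :=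
    hX.comp (Continuous.prodMk_left t).continuousOn hKF
  have h1 : z ∈ closure ((fun y => X (y, t)) '' K) := by
    rw [mem_closure_iff_nhds] at hz ⊢
    intro V hV
    obtain ⟨w, ⟨h1, h2⟩, h3⟩ := hz _ (inter_mem hV hN)
    rw [him] at h3
    obtain ⟨y, hy, rfl⟩ := h3
    exact ⟨_, h1, y, hKN y hy h2, rfl⟩
  rw [(hK.image_of_continuousOn hc).isClosed.closure_eq] at h1
  exact him ▸ image_mono hKF h1

/-- static surfaces: properness from closedness of the slice -/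
theorem proper_static (hG : G.Static) {U : Set E}
    (h : ∀ z ∈ closure (G.sl 0), z ∈ U → z ∈ G.sl 0) : G.Proper (U ×ˢ univ) := by
  intro P hP hU
  have h1 : P.1 ∈ closure (G.sl 0) :=
    map_mem_closure continuous_fst hP fun Q hQ => (hG.mem Q.1 Q.2).1 hQ
  exact (hG.mem P.1 P.2).2 (h _ h1 hU.1)

/-- **area ratios of the image** -/
theorem mu_img {X : ST → E} {Λ : ℝ} (him : G.sl s = (fun y => X (y, t)) '' F.sl t)
    (hl : ∀ y ∈ F.sl t, ∀ z ∈ F.sl t, ‖y - z‖ ≤ 2 * ‖X (y, t) - X (z, t)‖ ∧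
      ‖X (y, t) - X (z, t)‖ ≤ 2 * ‖y - z‖)
    (hA : ∀ y r, 0 < r → F.mu t (Metric.ball y r) ≤ ENNReal.ofReal (Λ * r ^ 2)) (y : E) {r : ℝ}
    (hr : 0 < r) : G.mu s (Metric.ball y r) ≤ ENNReal.ofReal (64 * Λ * r ^ 2) := by
  rw [Mv.mu, Measure.restrict_apply measurableSet_ball]
  rcases (Metric.ball y r ∩ G.sl s).eq_empty_or_nonempty with h | ⟨w, hw1, hw2⟩
  · simp [h]
  rw [him] at hw2
  obtain ⟨z, hz, rfl⟩ := hw2
  have h1 : Metric.ball y r ∩ G.sl s ⊆ (fun y => X (y, t)) '' (Metric.ball z (4 * r) ∩ F.sl t) := by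
    rintro w ⟨h1, h2⟩
    rw [him] at h2
    obtain ⟨u, hu, rfl⟩ := h2
    refine ⟨u, ⟨?_, hu⟩, rfl⟩
    have h3 := (hl u hu z hz).1
    have h4 := dist_triangle_right (X (u, t)) (X (z, t)) y
    rw [Metric.mem_ball] at h1 hw1 ⊢
    rw [dist_eq_norm] at h4 ⊢
    linarith
  have h2 : LipschitzOnWith 2 (fun y => X (y, t)) (Metric.ball z (4 * r) ∩ F.sl t) :=
    LipschitzOnWith.of_dist_le_mul fun a ha b hb => by
      rw [dist_eq_norm, dist_eq_norm]
      exact_mod_cast (hl a ha.2 b hb.2).2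
  have h3 := hA z (4 * r) (by positivity)
  rw [Mv.mu, Measure.restrict_apply measurableSet_ball] at h3
  refine (measure_mono h1).trans ((R241.AF.muHE_image_le h2 2).trans ?_)
  calc _ ≤ ((2 : NNReal) : ENNReal) ^ 2 * ENNReal.ofReal (Λ * (4 * r) ^ 2) := by gcongr
    _ = ENNReal.ofReal (64 * Λ * r ^ 2) := by
      rw [show ((2 : NNReal) : ENNReal) ^ 2 = ENNReal.ofReal 4 by norm_num,
        ← ENNReal.ofReal_mul (by norm_num)]
      congr 1
      ring

end Crest.Agent.N250.Im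

end
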